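import Vale.Agent.H78.FramedMain

namespace Vale.Agent.Results.P291.A_RankTwoLoopsFramed

open Vale.Agent.H78.Framed MvPolynomial

/-- Model-level equivariant Hikita statement for the quiver with one vertex and g loops,
gauge rank 2 and framing rank w (all g, all w): the structure map from
R = C[c1, c2, eps, m] onto the quotient of the (abelianized model of the) Coulomb branch
algebra by the ideal generated by the elements of nonzero charge is surjective, and its
kernel is the ideal of polynomials vanishing at the torus fixed points of the quiver variety,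
which have Chern roots (m_j, m_k) with j, k distinct and (m_j, m_j + eps_i), (m_j, m_j - eps_i). -/
theorem result (g w : ℕ) :
    (∀ a : coulomb g w, ∃ f : MvPolynomial (Bool ⊕ (Fin g ⊕ Fin w)) ℂ,
      a - inclC g w f ∈ charged g w) ∧
    (∀ f : MvPolynomial (Bool ⊕ (Fin g ⊕ Fin w)) ℂ, inclC g w f ∈ charged g w ↔
      (∀ j k : Fin w, j ≠ k → fixedPt g w (X (Sum.inr j)) (X (Sum.inr k)) f = 0) ∧
      (∀ (j : Fin w) (i : Fin g),
        fixedPt g w (X (Sum.inr j)) (X (Sum.inr j) + X (Sum.inl i)) f = 0 ∧
        fixedPt g w (X (Sum.inr j)) (X (Sum.inr j) - X (Sum.inl i)) f = 0)) :=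
  hikita_framed g w

end Vale.Agent.Results.P291.A_RankTwoLoopsFramed
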