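import Vale.Agent.H78.HikitaA

namespace Vale.Agent.Results.P291.B_LoopQuiverRankTwo

open Vale.Agent.H78.Hikita

/-- Hikita-type statement for the quiver with one vertex and g loops, dimension 2, framing 1,
in the abelianized model of the Coulomb branch with flavour parameters eps_1, .., eps_g:
modulo the ideal generated by the elements of nonzero charge, every element of the
Coulomb branch algebra comes from R = C[c1, c2, eps], and an element of R dies exactly
when it vanishes at the 2g fixed points (c1, c2) = (eps_i, 0) and (-eps_i, 0). -/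
theorem result (g : ℕ) :
    (∀ a : coulomb g, ∃ f : MvPolynomial (Bool ⊕ Fin g) ℂ, a - inclC g f ∈ charged g) ∧
    (∀ f : MvPolynomial (Bool ⊕ Fin g) ℂ, inclC g f ∈ charged g ↔
      ∀ i : Fin g, fixedPt g i 1 f = 0 ∧ fixedPt g i (-1) f = 0) :=
  ⟨surj g, fun f =>
    ⟨fun h i => ⟨ker_sub g i 1 (Or.inl rfl) f h, ker_sub g i (-1) (Or.inr rfl) f h⟩,
      fun h => span_mem g f (ca g f h)⟩⟩

end Vale.Agent.Results.P291.B_LoopQuiverRankTwo
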